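import Vale.Agent.P147.Velocity.Four.KillWeight

/-!
P147: the walk in the slab killed at height `u - 1` at the rate `U / (2 max (U, u) ^ (p + 1))`:
climbers like the `p`-th root of the time keep a fixed part of their weight.
-/

open MeasureTheory Filter
open scoped ENNReal Topology

namespace Vale.Agent.P147.Velocity.Step

open Vale.Agent.P147.Velocity.Four (top keep reach pot_le ind act act_of_nonpos)

variable {d : ℕ}

/-- The killing rate at height `h`. -/
noncomputable def lam (U p h : ℕ) : ℝ := U / (2 * max (U : ℝ) ((h : ℝ) + 1) ^ (p + 1))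

variable {U p : ℕ}

lemma lam_pos (hU : 1 ≤ U) (h : ℕ) : 0 < lam U p h :=
  div_pos (by exact_mod_cast hU) (mul_pos two_pos (pow_pos (lt_max_of_lt_right (by positivity)) _))

lemma lam_le_low (hU : 1 ≤ U) (h : ℕ) : lam U p h ≤ 1 / (2 * (U : ℝ) ^ p) := by
  have hU' : (1 : ℝ) ≤ U := by exact_mod_cast hU
  refine (div_le_div_of_nonneg_left (Nat.cast_nonneg U) (by positivity)
    (mul_le_mul_of_nonneg_left (pow_le_pow_left₀ (Nat.cast_nonneg U) (le_max_left _ _) _)
      zero_le_two)).trans (le_of_eq ?_)
  rw [pow_succ]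
  field_simp

lemma lam_le_half (hU : 1 ≤ U) (h : ℕ) : lam U p h ≤ 1 / 2 := by
  refine (lam_le_low hU h).trans (div_le_div_of_nonneg_left zero_le_one two_pos ?_)
  have : (1 : ℝ) ≤ (U : ℝ) ^ p := one_le_pow₀ (by exact_mod_cast hU)
  linarith

/-- Climbers meet a bounded total killing. -/
lemma sum_lam_le (hp : 1 ≤ p) (hU : 1 ≤ U) (C : ℕ) (h : ℕ → ℕ) (L : ℕ)
    (hh : ∀ k < L, k ≤ C * (h k + 1) ^ p) :
    ∑ k ∈ Finset.range L, lam U p (h k) ≤ ((C : ℝ) + 1 + C * p) / 2 := by
  have hU' : (1 : ℝ) ≤ U := by exact_mod_cast hU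
  have hC : (0 : ℝ) ≤ C := Nat.cast_nonneg C
  have key : ∀ n, U ≤ n → ∑ k ∈ (Finset.range L).filter (fun k => k ≤ C * n ^ p), lam U p (h k) ≤
      ((C : ℝ) + 1) / 2 + C * p * U / 2 * (1 / (U : ℝ) - 1 / (n : ℝ)) := by
    intro n hn
    induction n, hn using Nat.le_induction with
    | base =>
      rw [sub_self, mul_zero, add_zero]
      refine (Finset.sum_le_card_nsmul _ _ _ fun k _ => lam_le_low hU (h k)).trans ?_
      rw [nsmul_eq_mul]
      have hcard : ((((Finset.range L).filter fun k => k ≤ C * U ^ p).card : ℕ) : ℝ) ≤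
          (C : ℝ) * (U : ℝ) ^ p + 1 := by
        have : ((Finset.range L).filter fun k => k ≤ C * U ^ p).card ≤ C * U ^ p + 1 :=
          (Finset.card_le_card fun k hk => Finset.mem_range.2
            (Nat.lt_succ_of_le (Finset.mem_filter.1 hk).2)).trans_eq (Finset.card_range _)
        exact_mod_cast this
      refine (mul_le_mul_of_nonneg_right hcard (by positivity)).trans ?_
      have h1 : (1 : ℝ) ≤ (U : ℝ) ^ p := one_le_pow₀ hU'
      rw [mul_one_div, div_le_div_iff₀ (by positivity) two_pos]
      nlinarith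
    | succ n hn ih =>
      have hmono : C * n ^ p ≤ C * (n + 1) ^ p :=
        Nat.mul_le_mul_left _ (Nat.pow_le_pow_left n.le_succ _)
      rw [← Finset.sum_filter_add_sum_filter_not
        ((Finset.range L).filter fun k => k ≤ C * (n + 1) ^ p) (fun k => k ≤ C * n ^ p)]
      rw [Finset.filter_filter, Finset.filter_filter,
        show (Finset.range L).filter (fun k => k ≤ C * (n + 1) ^ p ∧ k ≤ C * n ^ p) =
          (Finset.range L).filter (fun k => k ≤ C * n ^ p) from Finset.filter_congr fun k _ =>
            ⟨fun h => h.2, fun h => ⟨h.trans hmono, h⟩⟩]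
      have hnU : (U : ℝ) ≤ (n : ℝ) + 1 := by
        have : (U : ℝ) ≤ n := by exact_mod_cast hn
        linarith
      have hn1 : (1 : ℝ) ≤ n := by exact_mod_cast hU.trans hn
      have hnew : ∑ k ∈ (Finset.range L).filter (fun k => k ≤ C * (n + 1) ^ p ∧ ¬k ≤ C * n ^ p),
          lam U p (h k) ≤ C * p * ((n : ℝ) + 1) ^ (p - 1) * (U / (2 * ((n : ℝ) + 1) ^ (p + 1))) := by
        refine (Finset.sum_le_card_nsmul _ _ (U / (2 * ((n : ℝ) + 1) ^ (p + 1)))
          fun k hk => ?_).trans ?_
        · obtain ⟨hkL, -, hgt⟩ := Finset.mem_filter.1 hk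
          have hlt : n < h k + 1 := by
            by_contra h'
            rw [not_lt] at h'
            exact hgt ((hh k (Finset.mem_range.1 hkL)).trans
              (Nat.mul_le_mul_left _ (Nat.pow_le_pow_left h' _)))
          refine div_le_div_of_nonneg_left (Nat.cast_nonneg U) (by positivity)
            (mul_le_mul_of_nonneg_left (pow_le_pow_left₀ (by positivity) (le_trans ?_
              (le_max_right _ _)) _) zero_le_two)
          exact_mod_cast hlt
        rw [nsmul_eq_mul]
        refine mul_le_mul_of_nonneg_right ?_ (by positivity)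
        calc ((((Finset.range L).filter fun k => k ≤ C * (n + 1) ^ p ∧ ¬k ≤ C * n ^ p).card : ℕ) : ℝ)
            ≤ ((C * (n + 1) ^ p - C * n ^ p : ℕ) : ℝ) := by
              rw [← Nat.card_Ioc]
              exact_mod_cast Finset.card_le_card fun k hk => by
                obtain ⟨-, h3, h4⟩ := Finset.mem_filter.1 hk
                exact Finset.mem_Ioc.2 ⟨not_le.1 h4, h3⟩
          _ ≤ _ := by
              rw [Nat.cast_sub hmono]
              push_cast
              rw [← mul_sub, mul_assoc]
              exact mul_le_mul_of_nonneg_left (succ_pow_sub_le n p) hC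
      refine (add_le_add ih hnew).trans ?_
      have h3 : ((n : ℝ) + 1) ^ (p - 1) * ((U : ℝ) / (2 * ((n : ℝ) + 1) ^ (p + 1))) ≤
          (U : ℝ) / 2 * (1 / (n : ℝ) - 1 / ((n : ℝ) + 1)) := by
        calc ((n : ℝ) + 1) ^ (p - 1) * ((U : ℝ) / (2 * ((n : ℝ) + 1) ^ (p + 1)))
            = (U : ℝ) / 2 * (1 / (((n : ℝ) + 1) * ((n : ℝ) + 1))) := by
              rw [show p + 1 = p - 1 + 2 by omega, pow_add]
              field_simp
          _ ≤ _ := by
              refine mul_le_mul_of_nonneg_left ?_ (by positivity)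
              rw [one_div, show (1 : ℝ) / n - 1 / ((n : ℝ) + 1) = ((n : ℝ) * ((n : ℝ) + 1))⁻¹ by
                field_simp; ring]
              exact inv_anti₀ (by positivity) (by nlinarith)
      have h4 := mul_le_mul_of_nonneg_left h3 (show (0 : ℝ) ≤ C * p by positivity)
      push_cast
      linarith
  have hall := key (max U L) (le_max_left _ _)
  have hfilter : ∀ k ∈ Finset.range L, k ≤ C * max U L ^ p ∨ C = 0 := fun k hk => by
    rcases Nat.eq_zero_or_pos C with h' | h'
    · exact Or.inr h'
    · exact Or.inl ((Finset.mem_range.1 hk).le.trans ((le_max_right U L).trans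
        ((Nat.le_self_pow (by omega) _).trans (Nat.le_mul_of_pos_left _ h'))))
  rw [Finset.filter_true_of_mem fun k hk => ?_] at hall
  · refine hall.trans ?_
    have h5 : (U : ℝ) * (1 / (U : ℝ) - 1 / ((max U L : ℕ) : ℝ)) ≤ 1 := by
      rw [mul_sub, mul_one_div, div_self (by linarith)]
      have : 0 ≤ (U : ℝ) * (1 / ((max U L : ℕ) : ℝ)) := by positivity
      linarith
    have h6 := mul_le_mul_of_nonneg_left h5 (show (0 : ℝ) ≤ C * p / 2 by positivity)
    linarith
  · rcases hfilter k hk with h' | h'
    · exact h'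
    · have := hh k (Finset.mem_range.1 hk)
      simp only [h', zero_mul, Nat.le_zero] at this
      simp [this]

/-- The survival in the slab `0 ≤ lev < N`. -/
noncomputable def surv (lev : Site d →+ ℤ) (U p N : ℕ) (x : Site d) : ℝ :=
  if 0 ≤ lev x ∧ lev x < N then 1 - lam U p (lev x).toNat else 0

variable {lev : Site d →+ ℤ} {N : ℕ}

lemma surv_nonneg (hU : 1 ≤ U) (x : Site d) : 0 ≤ surv lev U p N x := by
  unfold surv
  split_ifs
  · linarith [lam_le_half (p := p) hU (lev x).toNat]
  · exact le_rfl

lemma surv_lt_one (hU : 1 ≤ U) (x : Site d) : surv lev U p N x < 1 := by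
  unfold surv
  split_ifs
  · linarith [lam_pos (p := p) hU (lev x).toNat]
  · exact zero_lt_one

lemma surv_le_one (hU : 1 ≤ U) (x : Site d) : surv lev U p N x ≤ 1 := (surv_lt_one hU x).le

lemma half_le_surv (hU : 1 ≤ U) {x : Site d} (hx : 0 < surv lev U p N x) :
    1 / 2 ≤ surv lev U p N x := by
  unfold surv at hx ⊢
  split_ifs at hx ⊢
  · linarith [lam_le_half (p := p) hU (lev x).toNat]
  · exact absurd hx (lt_irrefl _)

lemma surv_top {x : Site d} (hx : x ∈ top lev N) : surv lev U p N x ≤ 0 := by
  rw [surv, if_neg fun h => absurd h.2 (not_lt.2 hx)]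

lemma surv_inside {x : Site d} (h0 : 0 ≤ lev x) (hN : lev x < N) :
    surv lev U p N x = 1 - lam U p (lev x).toNat := if_pos ⟨h0, hN⟩

/-- A climber keeps a fixed share. -/
lemma keep_ge (hp : 1 ≤ p) (hU : 1 ≤ U) {C : ℕ} {γ : List (Step d)} (hγ : ClimbWord lev C p γ)
    {z : Site d} (hz : lev z = 0) (hN : ∀ k < γ.length, lev (disp (γ.take k)) < N) :
    ENNReal.ofReal (Real.exp (-((C : ℝ) + 1 + C * p))) ≤ keep (surv lev U p N) z γ := by
  set h : ℕ → ℕ := fun k => (lev (disp (γ.take k))).toNat
  have hv : visits z γ = (List.range γ.length).map fun k => z + disp (γ.take k) :=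
    List.ext_getElem (by simp [length_visits]) fun k h1 h2 => by simp [visits_getElem]
  have hh : ∀ k < γ.length, k ≤ C * (h k + 1) ^ p := fun k hk => by
    obtain ⟨h1, h2⟩ := hγ k hk.le
    rw [← Int.toNat_of_nonneg h1] at h2
    exact_mod_cast h2
  have hterm : ∀ k < γ.length, ENNReal.ofReal (Real.exp (-(2 * lam U p (h k)))) ≤
      ENNReal.ofReal (surv lev U p N (z + disp (γ.take k))) := by
    intro k hk
    rw [surv_inside (by rw [map_add, hz, zero_add]; exact (hγ k hk.le).1)
      (by rw [map_add, hz, zero_add]; exact hN k hk), map_add, hz, zero_add]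
    refine ENNReal.ofReal_le_ofReal ?_
    change Real.exp (-(2 * lam U p (h k))) ≤ 1 - lam U p (h k)
    rw [Real.exp_neg, inv_le_iff_one_le_mul₀ (Real.exp_pos _)]
    nlinarith [Real.add_one_le_exp (2 * lam U p (h k)), lam_le_half (p := p) hU (h k),
      (lam_pos (p := p) hU (h k)).le]
  rw [keep, hv, List.map_map]
  calc ENNReal.ofReal (Real.exp (-((C : ℝ) + 1 + C * p)))
      ≤ ENNReal.ofReal (Real.exp (∑ k ∈ Finset.range γ.length, -(2 * lam U p (h k)))) := by
        refine ENNReal.ofReal_le_ofReal (Real.exp_le_exp.2 ?_)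
        rw [Finset.sum_neg_distrib, ← Finset.mul_sum, neg_le_neg_iff]
        linarith [sum_lam_le hp hU C h γ.length hh]
    _ = ∏ k ∈ Finset.range γ.length, ENNReal.ofReal (Real.exp (-(2 * lam U p (h k)))) := by
        rw [Real.exp_sum, ENNReal.ofReal_prod_of_nonneg fun k _ => (Real.exp_pos _).le]
    _ ≤ ∏ k ∈ Finset.range γ.length, ENNReal.ofReal (surv lev U p N (z + disp (γ.take k))) :=
        Finset.prod_le_prod' fun k hk => hterm k (Finset.mem_range.1 hk)
    _ = _ := by rw [← List.prod_toFinset _ List.nodup_range, List.toFinset_range]; rfl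

variable [NeZero d]

/-- Reaching the top alive is reaching it. -/
lemma succ_le_reach (hU : 1 ≤ U) {ω : Env d} (hω : Good ω) (z : Site d) :
    Four.succ (surv lev U p N) ω (top lev N) z ≤ law ω z (reach lev N) := by
  refine pot_le (h := fun y => law ω y (reach lev N)) (fun y => ?_) z
  by_cases hy : y ∈ top lev N
  · rw [ind, if_pos hy, act_of_nonpos _ (surv_top hy), add_zero]
    have h1 : law ω y {X | X 0 = y} = 1 :=
      (prob_compl_eq_zero_iff (measurableSet_start y)).mp (law_start ω y)
    refine h1.symm.le.trans (measure_mono fun X (hX : X 0 = y) => ⟨0, ?_, by omega⟩)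
    rw [hX]; exact hy
  · rw [ind, if_neg hy, zero_add, act]
    by_cases h0 : 0 ≤ lev y
    · refine le_trans (mul_le_of_le_one_left' (ENNReal.ofReal_le_one.2 (surv_le_one hU y))) ?_
      rw [← law_theta hω y (Four.measurableSet_reach lev N)]
      have h1 : law ω y {X | X 0 = y}ᶜ = 0 := law_start ω y
      calc law ω y (theta ⁻¹' reach lev N)
          ≤ law ω y ((theta ⁻¹' reach lev N) ∩ {X | X 0 = y}) + law ω y {X | X 0 = y}ᶜ :=
            (measure_mono fun X hX => by
              by_cases h : X 0 = y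
              · exact Or.inl ⟨hX, h⟩
              · exact Or.inr h).trans (measure_union_le _ _)
        _ ≤ law ω y (reach lev N) := by
            rw [h1, add_zero]
            refine measure_mono fun X ⟨⟨t, ht, hs⟩, (hX : X 0 = y)⟩ => ⟨t + 1, ht, fun s hs' => ?_⟩
            rcases s with _ | s
            · rw [hX]; exact h0
            · exact hs s (by omega)
    · rw [surv, if_neg fun h => h0 h.1]
      simp

end Vale.Agent.P147.Velocity.Step
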