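import Vale.Agent.P147.Velocity.Four.Swap
import Vale.Agent.P147.Velocity.Janson

/-!
P147: replacing the rows along a family of words one by one, in the order of first arrival, by
their averages costs at each site one damage times the annealed weight of the arriving prefixes;
for words without unlikely prefixes this is the annealed occupation.
-/

open MeasureTheory Filter
open scoped ENNReal

namespace Vale.Agent.P147.Velocity.Step

open Vale.Agent.P147.Resample Vale.Agent.P147.Velocity.Four

variable {d : ℕ} {μ : Measure (Step d → ℝ)} [IsProbabilityMeasure μ]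

/-- One more row averaged out. -/
lemma fresh_insert {U : Finset (Site d)} {x : Site d} (hx : x ∉ U) {G : Env d → ℝ≥0∞}
    (hG : Measurable G) (ω : Env d) : fresh μ (insert x U) G ω =
      ∫⁻ η, fresh μ U G (({x} : Finset (Site d)).piecewise η ω) ∂iidLaw μ := by
  classical
  have hm : Measurable fun ξ : Env d => G ((insert x U).piecewise ξ ω) :=
    hG.comp ((measurable_piecewise (insert x U)).comp (measurable_id.prodMk measurable_const))
  rw [fresh, lintegral_piecewise μ U hm]
  refine lintegral_congr fun η => lintegral_congr fun ζ => congrArg G ?_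
  funext y
  by_cases hy : y ∈ U
  · simp [hy]
  · by_cases hyx : y = x
    · subst hyx; simp [hy]
    · simp [hy, hyx]

/-- Replacing one row. -/
lemma replace_row {U : Finset (Site d)} {x : Site d} (hx : x ∉ U) {G F D : Env d → ℝ≥0∞}
    (hG : Measurable G) (hF : Measurable F) (hD : Measurable D)
    (hFD : ∀ᵐ ω ∂iidLaw μ, ∀ᵐ η ∂iidLaw μ,
      F ω ≤ F (({x} : Finset (Site d)).piecewise η ω) + D ω)
    {c : ℝ≥0∞} (hc : ∀ᵐ ω ∂iidLaw μ, fresh μ (insert x U) G ω ≤ c) :
    ∫⁻ ω, fresh μ (insert x U) G ω * F ω ∂iidLaw μ ≤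
      ∫⁻ ω, fresh μ U G ω * F ω ∂iidLaw μ + c * ∫⁻ ω, D ω ∂iidLaw μ := by
  classical
  set X : Finset (Site d) := {x}
  set H := fresh μ U G
  have hH : Measurable H := measurable_fresh μ U hG
  have hHX : ∀ ω, Measurable fun η : Env d => H (X.piecewise η ω) := fun ω =>
    hH.comp ((measurable_piecewise X).comp (measurable_id.prodMk measurable_const))
  have hK : Measurable fun ω => H ω * F ω := hH.mul hF
  have hKX : ∀ ω, Measurable fun η : Env d => H (X.piecewise η ω) * F (X.piecewise η ω) := fun ω =>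
    hK.comp ((measurable_piecewise X).comp (measurable_id.prodMk measurable_const))
  calc ∫⁻ ω, fresh μ (insert x U) G ω * F ω ∂iidLaw μ
      = ∫⁻ ω, ∫⁻ η, H (X.piecewise η ω) * F ω ∂iidLaw μ ∂iidLaw μ := lintegral_congr fun ω => by
        rw [fresh_insert hx hG, lintegral_mul_const _ (hHX ω)]
    _ ≤ ∫⁻ ω, (∫⁻ η, H (X.piecewise η ω) * F (X.piecewise η ω) ∂iidLaw μ) +
          fresh μ (insert x U) G ω * D ω ∂iidLaw μ := by
        refine lintegral_mono_ae (hFD.mono fun ω h => ?_)
        rw [fresh_insert hx hG, ← lintegral_mul_const _ (hHX ω), ← lintegral_add_left (hKX ω)]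
        refine lintegral_mono_ae (h.mono fun η hη => ?_)
        exact (mul_le_mul' le_rfl hη).trans_eq (mul_add _ _ _)
    _ ≤ ∫⁻ ω, (∫⁻ η, H (X.piecewise η ω) * F (X.piecewise η ω) ∂iidLaw μ) + c * D ω ∂iidLaw μ :=
        lintegral_mono_ae (hc.mono fun ω h => add_le_add le_rfl (mul_le_mul' h le_rfl))
    _ = _ := by
        rw [lintegral_add_right _ (hD.const_mul c), lintegral_const_mul c hD,
          ← lintegral_piecewise μ X hK]

variable [NeZero d]

/-- Words none of which extends another one weigh at most one. -/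
lemma sum_wt_le_one (hrow : ∀ᵐ p ∂μ, GoodRow p) (s : Finset (List (Step d)))
    (hfree : ∀ γ ∈ s, ∀ δ ∈ s, γ <+: δ → γ = δ) : ∑ γ ∈ s, wt μ γ ≤ 1 := by
  simp only [← fun γ => lintegral_qp μ γ (0 : Site d)]
  rw [← lintegral_finsetSum _ fun γ _ => measurable_qp γ 0]
  refine (lintegral_mono_ae ((ae_forall_site μ hrow).mono fun ω hω =>
    (sum_qp_le hω 0 [] s (fun γ _ => List.nil_prefix) hfree).trans (le_of_eq rfl))).trans ?_
  simp [qp]

/-- The stage with the first `k` rows of every word averaged out. -/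
noncomputable def stage (μ : Measure (Step d → ℝ)) [IsProbabilityMeasure μ] (z : Site d)
    (G : Finset (List (Step d))) (F : Env d → ℝ≥0∞) (k : ℕ) : ℝ≥0∞ :=
  ∑ γ ∈ G, ∫⁻ ω, fresh μ (visits z (γ.take k)).toFinset (fun ω => qp ω z γ) ω * F ω ∂iidLaw μ

open scoped Classical in
/-- The prefixes of length `k` which arrive at a new site. -/
noncomputable def newAt (z : Site d) (G : Finset (List (Step d))) (k : ℕ) :
    Finset (List (Step d)) :=
  ((G.filter fun γ => k < γ.length).image (List.take k)).filter fun π => z + disp π ∉ visits z π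

omit [NeZero d] in
lemma sum_fresh (U : Finset (Site d)) (z : Site d) (s : Finset (List (Step d)))
    {F : Env d → ℝ≥0∞} (hF : Measurable F) :
    ∑ γ ∈ s, ∫⁻ ω, fresh μ U (fun ω => qp ω z γ) ω * F ω ∂iidLaw μ =
      ∫⁻ ω, fresh μ U (fun ω => ∑ γ ∈ s, qp ω z γ) ω * F ω ∂iidLaw μ := by
  rw [← lintegral_finsetSum s (f := fun γ ω => fresh μ U (fun ω => qp ω z γ) ω * F ω)
    fun γ _ => (measurable_fresh μ U (measurable_qp γ z)).mul hF]
  refine lintegral_congr fun ω => ?_
  rw [← Finset.sum_mul]
  congr 1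
  exact (lintegral_finsetSum _ fun γ _ => (measurable_qp γ z).comp
    ((measurable_piecewise U).comp (measurable_id.prodMk measurable_const))).symm

/-- Averaging one more row of every word. -/
lemma stage_succ (hrow : ∀ᵐ p ∂μ, GoodRow p) (z : Site d) (G : Finset (List (Step d)))
    (hfree : ∀ γ ∈ G, ∀ δ ∈ G, γ <+: δ → γ = δ) {F : Env d → ℝ≥0∞} (hF : Measurable F)
    {D : Site d → Env d → ℝ≥0∞} (hD : ∀ x, Measurable (D x))
    (hFD : ∀ x, ∀ᵐ ω ∂iidLaw μ, ∀ᵐ η ∂iidLaw μ,
      F ω ≤ F (({x} : Finset (Site d)).piecewise η ω) + D x ω) (k : ℕ) :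
    stage μ z G F (k + 1) ≤
      stage μ z G F k + ∑ π ∈ newAt z G k, wt μ π * ∫⁻ ω, D (z + disp π) ω ∂iidLaw μ := by
  classical
  unfold stage
  rw [← Finset.sum_filter_add_sum_filter_not G (fun γ => k < γ.length),
    ← Finset.sum_filter_add_sum_filter_not G (fun γ => k < γ.length), add_right_comm]
  refine add_le_add ?_ (le_of_eq (Finset.sum_congr rfl fun γ hγ => ?_))
  swap
  · obtain ⟨-, h⟩ := Finset.mem_filter.1 hγ
    rw [List.take_of_length_le (i := k + 1) (by omega), List.take_of_length_le (i := k) (by omega)]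
  set long := G.filter fun γ => k < γ.length
  rw [← Finset.sum_fiberwise_of_maps_to (t := long.image (List.take k)) (g := List.take k)
    (fun γ hγ => Finset.mem_image_of_mem _ hγ),
    ← Finset.sum_fiberwise_of_maps_to (t := long.image (List.take k)) (g := List.take k)
    (fun γ hγ => Finset.mem_image_of_mem _ hγ), newAt, Finset.sum_filter, ← Finset.sum_add_distrib]
  refine Finset.sum_le_sum fun π _ => ?_
  set s := long.filter fun γ => γ.take k = π
  set U := (visits z π).toFinset
  set x := z + disp π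
  have hnow : ∀ γ ∈ s, (visits z (γ.take k)).toFinset = U := fun γ hγ => by
    rw [(Finset.mem_filter.1 hγ).2]
  have hnext : ∀ γ ∈ s, (visits z (γ.take (k + 1))).toFinset = insert x U := fun γ hγ => by
    obtain ⟨hlong, hπ⟩ := Finset.mem_filter.1 hγ
    have hk := (Finset.mem_filter.1 hlong).2
    rw [List.take_add_one, List.getElem?_eq_getElem hk, Option.toList_some, hπ, visits_append]
    simp [visits, U, x, List.toFinset_append]
  have e1 : ∑ γ ∈ s, ∫⁻ ω, fresh μ (visits z (γ.take k)).toFinset (fun ω => qp ω z γ) ω * F ω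
      ∂iidLaw μ = ∫⁻ ω, fresh μ U (fun ω => ∑ γ ∈ s, qp ω z γ) ω * F ω ∂iidLaw μ := by
    rw [← sum_fresh U z s hF]
    exact Finset.sum_congr rfl fun γ hγ => by rw [hnow γ hγ]
  have e2 : ∑ γ ∈ s, ∫⁻ ω, fresh μ (visits z (γ.take (k + 1))).toFinset (fun ω => qp ω z γ) ω
      * F ω ∂iidLaw μ = ∫⁻ ω, fresh μ (insert x U) (fun ω => ∑ γ ∈ s, qp ω z γ) ω * F ω
      ∂iidLaw μ := by
    rw [← sum_fresh (insert x U) z s hF]
    exact Finset.sum_congr rfl fun γ hγ => by rw [hnext γ hγ]
  rw [e1, e2]
  by_cases hx : x ∈ visits z π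
  · rw [if_neg (not_not.2 hx), Finset.insert_eq_of_mem (List.mem_toFinset.2 hx), add_zero]
  rw [if_pos hx]
  refine replace_row (fun h => hx (List.mem_toFinset.1 h))
    (Finset.measurable_sum _ fun γ _ => measurable_qp γ z) hF (hD x) (hFD x) ?_
  have hgood := ae_forall_site μ (P := GoodRow) hrow
  filter_upwards [hgood] with ω hω
  calc fresh μ (insert x U) (fun ω => ∑ γ ∈ s, qp ω z γ) ω
      ≤ ∫⁻ η, qp ((insert x U).piecewise η ω) z π ∂iidLaw μ := by
        refine lintegral_mono_ae (hgood.mono fun η hη => sum_qp_le (fun y => ?_) z π s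
          (fun γ hγ => (Finset.mem_filter.1 hγ).2 ▸ List.take_prefix _ _) fun γ hγ γ' hγ' =>
            hfree γ (Finset.mem_filter.1 (Finset.mem_filter.1 hγ).1).1 γ'
              (Finset.mem_filter.1 (Finset.mem_filter.1 hγ').1).1)
        by_cases hy : y ∈ insert x U
        · simpa [hy] using hη y
        · simpa [hy] using hω y
    _ = wt μ π := by
        rw [← lintegral_qp μ π z]
        exact lintegral_congr fun η => qp_congr π z fun y hy => by simp [U, hy]

open scoped Classical in
/-- The weight of the completions of a prefix in a family. -/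
noncomputable def compl (μ : Measure (Step d → ℝ)) (G : Finset (List (Step d)))
    (π : List (Step d)) : ℝ≥0∞ :=
  ∑ γ ∈ G.filter (fun γ => π <+: γ), wt μ γ

open scoped Classical in
/-- The words all of whose prefixes are completed with chance at least `δ`. -/
noncomputable def pruned (μ : Measure (Step d → ℝ)) (G : Finset (List (Step d))) (δ : ℝ≥0∞) :
    Finset (List (Step d)) :=
  G.filter fun γ => ∀ k < γ.length, δ * wt μ (γ.take k) ≤ compl μ G (γ.take k)

/-- Pruning loses at most `δ`. -/
lemma sum_le_pruned (hrow : ∀ᵐ p ∂μ, GoodRow p) (G : Finset (List (Step d))) (δ : ℝ≥0∞) :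
    ∑ γ ∈ G, wt μ γ ≤ ∑ γ ∈ pruned μ G δ, wt μ γ + δ := by
  classical
  rw [pruned, ← Finset.sum_filter_add_sum_filter_not G
    (fun γ => ∀ k < γ.length, δ * wt μ (γ.take k) ≤ compl μ G (γ.take k))]
  refine add_le_add le_rfl ?_
  set bad := G.filter fun γ => ¬ ∀ k < γ.length, δ * wt μ (γ.take k) ≤ compl μ G (γ.take k)
  set Q : List (Step d) → ℕ → Prop := fun γ k =>
    k < γ.length ∧ compl μ G (γ.take k) < δ * wt μ (γ.take k)
  have hex : ∀ γ ∈ bad, ∃ k, Q γ k := fun γ hγ => by
    obtain ⟨-, h⟩ := Finset.mem_filter.1 hγ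
    push Not at h
    exact h
  set first : List (Step d) → List (Step d) := fun γ =>
    if h : ∃ k, Q γ k then γ.take (Nat.find h) else []
  calc ∑ γ ∈ bad, wt μ γ
      = ∑ π ∈ bad.image first, ∑ γ ∈ bad.filter (fun γ => first γ = π), wt μ γ :=
        (Finset.sum_fiberwise_of_maps_to (fun γ hγ => Finset.mem_image_of_mem _ hγ) _).symm
    _ ≤ ∑ π ∈ bad.image first, δ * wt μ π := by
        refine Finset.sum_le_sum fun π hπ => ?_
        obtain ⟨γ₀, hγ₀, rfl⟩ := Finset.mem_image.1 hπ
        refine (Finset.sum_le_sum_of_subset fun γ hγ => ?_).trans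
          (le_of_lt (b := δ * wt μ (first γ₀)) (a := compl μ G (first γ₀)) ?_)
        · obtain ⟨h1, h2⟩ := Finset.mem_filter.1 hγ
          refine Finset.mem_filter.2 ⟨(Finset.mem_filter.1 h1).1, h2 ▸ ?_⟩
          simp only [first, dif_pos (hex γ h1)]
          exact List.take_prefix _ _
        · simp only [first, dif_pos (hex γ₀ hγ₀)]
          exact (Nat.find_spec (hex γ₀ hγ₀)).2
    _ ≤ δ := by
        rw [← Finset.mul_sum]
        refine (mul_le_mul' le_rfl (sum_wt_le_one hrow _ fun π hπ π' hπ' hpre => ?_)).trans_eq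
          (mul_one _)
        obtain ⟨γ, hγ, rfl⟩ := Finset.mem_image.1 hπ
        obtain ⟨γ', hγ', rfl⟩ := Finset.mem_image.1 hπ'
        simp only [first, dif_pos (hex γ hγ), dif_pos (hex γ' hγ')] at hpre ⊢
        set a := Nat.find (hex γ hγ)
        set b := Nat.find (hex γ' hγ')
        have ha := Nat.find_spec (hex γ hγ)
        have hb := Nat.find_spec (hex γ' hγ')
        have hla : (γ.take a).length = a := List.length_take_of_le ha.1.le
        have hlb : (γ'.take b).length = b := List.length_take_of_le hb.1.le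
        rcases eq_or_lt_of_le (show a ≤ b by simpa [hla, hlb] using hpre.length_le) with h | h
        · exact hpre.eq_of_length (by rw [hla, hlb, h])
        · refine absurd ⟨h.trans hb.1, ?_⟩ (Nat.find_min (hex γ' hγ') h)
          have e : γ'.take a = γ.take a := by
            have h1 := List.prefix_iff_eq_take.1 hpre
            rw [hla, List.take_take, min_eq_left h.le] at h1
            exact h1.symm
          rw [e]
          exact ha.2

omit [IsProbabilityMeasure μ] [NeZero d] in
/-- The arriving prefixes of pruned words against the occupation of all words. -/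
lemma sum_newAt_le (z : Site d) (G : Finset (List (Step d)))
    (hfree : ∀ γ ∈ G, ∀ δ ∈ G, γ <+: δ → γ = δ) {δ : ℝ≥0∞} (hδ : δ ≠ 0) (hδt : δ ≠ ⊤)
    (f : Site d → ℝ≥0∞) (L : ℕ) :
    ∑ k ∈ Finset.range L, ∑ π ∈ newAt z (pruned μ G δ) k, wt μ π * f (z + disp π) ≤
      δ⁻¹ * ∑ γ ∈ G, wt μ γ * ∑ x ∈ (visits z γ).toFinset, f x := by
  classical
  set isNew : List (Step d) → ℕ → Prop := fun γ k =>
    k < γ.length ∧ z + disp (γ.take k) ∉ visits z (γ.take k)
  set t : List (Step d) → ℕ → ℝ≥0∞ := fun γ k =>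
    if isNew γ k then f (z + disp (γ.take k)) else 0
  calc ∑ k ∈ Finset.range L, ∑ π ∈ newAt z (pruned μ G δ) k, wt μ π * f (z + disp π)
      ≤ ∑ k ∈ Finset.range L, δ⁻¹ * ∑ γ ∈ G, wt μ γ * t γ k := by
        refine Finset.sum_le_sum fun k _ => ?_
        calc ∑ π ∈ newAt z (pruned μ G δ) k, wt μ π * f (z + disp π)
            ≤ ∑ π ∈ newAt z (pruned μ G δ) k, δ⁻¹ * (compl μ G π * f (z + disp π)) := by
              refine Finset.sum_le_sum fun π hπ => ?_
              obtain ⟨γ, hγ, rfl⟩ := Finset.mem_image.1 (Finset.mem_filter.1 hπ).1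
              obtain ⟨hγp, hk⟩ := Finset.mem_filter.1 hγ
              rw [← mul_assoc]
              refine mul_le_mul' ?_ le_rfl
              have h := (Finset.mem_filter.1 hγp).2 k hk
              calc wt μ (γ.take k) = δ⁻¹ * (δ * wt μ (γ.take k)) := by
                    rw [← mul_assoc, ENNReal.inv_mul_cancel hδ hδt, one_mul]
                _ ≤ _ := mul_le_mul' le_rfl h
          _ = δ⁻¹ * ∑ γ ∈ G, wt μ γ * ∑ π ∈ newAt z (pruned μ G δ) k,
                if π <+: γ then f (z + disp π) else 0 := by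
              simp only [compl, Finset.mul_sum, Finset.sum_mul, Finset.sum_filter, mul_ite, ite_mul,
                mul_zero, zero_mul]
              exact Finset.sum_comm
          _ ≤ _ := by
              refine mul_le_mul' le_rfl (Finset.sum_le_sum fun γ hγ => mul_le_mul' le_rfl ?_)
              rw [← Finset.sum_filter]
              refine (Finset.sum_le_sum_of_subset (t := if isNew γ k then {γ.take k} else ∅)
                fun π hπ => ?_).trans (le_of_eq (by simp only [t]; split_ifs <;> simp))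
              obtain ⟨h1, h2⟩ := Finset.mem_filter.1 hπ
              obtain ⟨h3, h4⟩ := Finset.mem_filter.1 h1
              obtain ⟨γ', hγ', rfl⟩ := Finset.mem_image.1 h3
              obtain ⟨hp', hk⟩ := Finset.mem_filter.1 hγ'
              have e : γ'.take k = γ.take k := by
                have h5 := List.prefix_iff_eq_take.1 h2
                rwa [List.length_take_of_le hk.le] at h5
              have hkγ : k < γ.length := by
                by_contra hle
                rw [not_lt] at hle
                rw [List.take_of_length_le hle] at e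
                have := hfree γ hγ γ' (Finset.mem_filter.1 hp').1 (e ▸ List.take_prefix _ _)
                rw [this] at hle
                omega
              rw [if_pos (show isNew γ k from ⟨hkγ, e ▸ h4⟩), e]
              exact Finset.mem_singleton_self _
    _ = δ⁻¹ * ∑ γ ∈ G, wt μ γ * ∑ k ∈ Finset.range L, t γ k := by
        rw [← Finset.mul_sum, Finset.sum_comm]
        simp only [Finset.mul_sum]
    _ ≤ _ := by
        refine mul_le_mul' le_rfl (Finset.sum_le_sum fun γ _ => mul_le_mul' le_rfl ?_)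
        simp only [t]
        rw [← Finset.sum_filter, ← Finset.sum_image (g := fun k => z + disp (γ.take k))]
        · refine Finset.sum_le_sum_of_subset fun y hy => ?_
          obtain ⟨k, hk, rfl⟩ := Finset.mem_image.1 hy
          exact List.mem_toFinset.2 (mem_visits.2 ⟨k, (Finset.mem_filter.1 hk).2.1, rfl⟩)
        intro i hi j hj e
        simp only [Finset.coe_filter, Set.mem_ofPred_eq] at hi hj
        have key : ∀ i j, i < j → isNew γ j → z + disp (γ.take i) ≠ z + disp (γ.take j) := by
          intro i j hij hj e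
          refine hj.2 (e ▸ mem_visits.2 ⟨i, ?_, ?_⟩)
          · rw [List.length_take]; have := hj.1; omega
          · rw [List.take_take, min_eq_left hij.le]
        rcases lt_trichotomy i j with h | h | h
        · exact absurd e (key i j h hj.2)
        · exact h
        · exact absurd e.symm (key j i h hi.2)

/-- **Replacing all rows along a family of words.** -/
theorem replace_le (hrow : ∀ᵐ p ∂μ, GoodRow p) (z : Site d) (G : Finset (List (Step d)))
    (hfree : ∀ γ ∈ G, ∀ δ ∈ G, γ <+: δ → γ = δ) {F : Env d → ℝ≥0∞} (hF : Measurable F)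
    {D : Site d → Env d → ℝ≥0∞} (hD : ∀ x, Measurable (D x))
    (hFD : ∀ x, ∀ᵐ ω ∂iidLaw μ, ∀ᵐ η ∂iidLaw μ,
      F ω ≤ F (({x} : Finset (Site d)).piecewise η ω) + D x ω)
    {δ : ℝ≥0∞} (hδ : δ ≠ 0) (hδt : δ ≠ ⊤) :
    (∑ γ ∈ G, wt μ γ) * ∫⁻ ω, F ω ∂iidLaw μ ≤
      δ * ∫⁻ ω, F ω ∂iidLaw μ + ∑ γ ∈ G, ∫⁻ ω, qp ω z γ * F ω ∂iidLaw μ +
        δ⁻¹ * ∑ γ ∈ G, wt μ γ * ∑ x ∈ (visits z γ).toFinset, ∫⁻ ω, D x ω ∂iidLaw μ := by
  classical
  set G' := pruned μ G δ
  have hsub : G' ⊆ G := Finset.filter_subset _ _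
  set L := G.sup List.length
  have hstep : ∀ n, stage μ z G' F n ≤ stage μ z G' F 0 +
      ∑ k ∈ Finset.range n, ∑ π ∈ newAt z G' k, wt μ π * ∫⁻ ω, D (z + disp π) ω ∂iidLaw μ := by
    intro n
    induction n with
    | zero => simp
    | succ n ih =>
      refine (stage_succ hrow z G' (fun γ hγ δ hδ => hfree γ (hsub hγ) δ (hsub hδ)) hF hD hFD
        n).trans ?_
      rw [Finset.sum_range_succ, ← add_assoc]
      exact add_le_add ih le_rfl
  have h0 : stage μ z G' F 0 ≤ ∑ γ ∈ G, ∫⁻ ω, qp ω z γ * F ω ∂iidLaw μ := by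
    refine le_trans (le_of_eq (Finset.sum_congr rfl fun γ _ => lintegral_congr fun ω => ?_))
      (Finset.sum_le_sum_of_subset hsub)
    rw [fresh, lintegral_congr (g := fun _ => qp ω z γ) fun η => qp_congr γ z fun y _ =>
      Finset.piecewise_eq_of_notMem _ _ _ (by simp [visits])]
    simp
  have hL : stage μ z G' F L = (∑ γ ∈ G', wt μ γ) * ∫⁻ ω, F ω ∂iidLaw μ := by
    rw [Finset.sum_mul]
    refine Finset.sum_congr rfl fun γ hγ => ?_
    rw [List.take_of_length_le (Finset.le_sup (f := List.length) (hsub hγ))]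
    rw [← lintegral_const_mul _ hF]
    refine lintegral_congr fun ω => ?_
    congr 1
    rw [← lintegral_qp μ γ z]
    exact lintegral_congr fun η => qp_congr γ z fun y hy => by simp [hy]
  have h1 := hL ▸ hstep L
  calc (∑ γ ∈ G, wt μ γ) * ∫⁻ ω, F ω ∂iidLaw μ
      ≤ (∑ γ ∈ G', wt μ γ + δ) * ∫⁻ ω, F ω ∂iidLaw μ :=
        mul_le_mul' (sum_le_pruned hrow G δ) le_rfl
    _ ≤ _ := by
        rw [add_mul, add_comm, add_assoc]
        exact add_le_add le_rfl (h1.trans (add_le_add h0
          (sum_newAt_le z G hfree hδ hδt (fun x => ∫⁻ ω, D x ω ∂iidLaw μ) L)))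

end Vale.Agent.P147.Velocity.Step
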