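import Vale.Agent.P147.Velocity.Four.OneRow
import Vale.Agent.P147.Velocity.Step.Replace
import Vale.Agent.P147.Velocity.Step.Kill

/-!
P147: one new row moves the total chance of many starts to climb by the visits times the gradient,
so that replacement gives an exponential lower tail for this total chance.
-/

open MeasureTheory Filter
open scoped ENNReal

namespace Vale.Agent.P147.Velocity.Step

open Vale.Agent.P147.Resample
open Vale.Agent.P147.Velocity.Four (top keep green spreadAt spreadAt_nonneg pot_congr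
  measurable_pot succ_ne_top green_ne_top succ_update_le gradient_sq_le sum_keep_le
  sum_kill_green_le sum_spread_green_le)

variable {d : ℕ} (lev : Site d →+ ℤ) (U p N : ℕ) (Z : Finset (Site d))

/-- The chances of the starts to reach the top alive, together. -/
noncomputable def tot (ω : Env d) : ℝ :=
  ∑ z ∈ Z, (Four.succ (surv lev U p N) ω (top lev N) z).toReal

/-- The Laplace weight. -/
noncomputable def damp (s : ℝ) (ω : Env d) : ℝ≥0∞ :=
  ENNReal.ofReal (Real.exp (-(s * tot lev U p N Z ω)))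

/-- The mean visits of all starts. -/
noncomputable def greens (x : Site d) (ω : Env d) : ℝ≥0∞ :=
  ∑ z ∈ Z, green (surv lev U p N) ω z x

/-- The damage of one new row. -/
noncomputable def dmg (κ s : ℝ) (x : Site d) (ω : Env d) : ℝ≥0∞ :=
  ENNReal.ofReal s * (damp lev U p N Z s ω * (greens lev U p N Z x ω * ENNReal.ofReal
    (Real.sqrt (4 * d / κ *
      (surv lev U p N x * spreadAt (surv lev U p N) ω (top lev N) x)) / κ)))

variable {lev U p N Z}

lemma measurable_tot : Measurable (tot lev U p N Z) :=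
  Finset.measurable_sum _ fun z _ => (measurable_pot _ _ z).ennreal_toReal

lemma measurable_damp (s : ℝ) : Measurable (damp lev U p N Z s) :=
  (measurable_tot.const_mul s).neg.exp.ennreal_ofReal

lemma measurable_spreadAt (x : Site d) :
    Measurable fun ω : Env d => spreadAt (surv lev U p N) ω (top lev N) x := by
  have h : ∀ y, Measurable fun ω : Env d =>
      (Four.succ (surv lev U p N) ω (top lev N) y).toReal := fun y =>
    (measurable_pot _ _ y).ennreal_toReal
  have hrow : ∀ e, Measurable fun ω : Env d => ω x e := fun e =>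
    (measurable_pi_apply e).comp (measurable_pi_apply x)
  exact Finset.measurable_sum _ fun e _ => (hrow e).mul
    (((h _).sub (Finset.measurable_sum _ fun e' _ => (hrow e').mul (h _))).pow_const 2)

lemma measurable_dmg (κ s : ℝ) (x : Site d) : Measurable (dmg lev U p N Z κ s x) :=
  measurable_const.mul ((measurable_damp s).mul
    ((Finset.measurable_sum _ fun z _ => measurable_pot _ _ z).mul
      ((((measurable_spreadAt x).const_mul _).const_mul _).sqrt.div_const _).ennreal_ofReal))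

/-- One new row moves the weight by at most its damage. -/
lemma damp_le_dmg {ω : Env d} (hω : Good ω) {κ : ℝ} (hκ : 0 < κ) (hωκ : ∀ x e, κ ≤ ω x e)
    (hU : 1 ≤ U) {s : ℝ} (hs : 0 ≤ s) (x : Site d) {η : Env d} (hη : GoodRow (η x))
    (hηκ : ∀ e, κ ≤ η x e) :
    damp lev U p N Z s ω ≤ damp lev U p N Z s (({x} : Finset (Site d)).piecewise η ω) +
      dmg lev U p N Z κ s x ω := by
  classical
  set k := surv lev U p N
  set T := top lev N
  have hk0 : ∀ x, 0 ≤ k x := surv_nonneg hU
  have hk1 : ∀ x, k x ≤ 1 := surv_le_one hU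
  have hT : ∀ x ∈ T, k x ≤ 0 := fun x hx => surv_top hx
  rw [Finset.piecewise_singleton]
  set ω' := Function.update ω x (η x)
  by_cases hx : 0 < k x
  swap
  · have : damp lev U p N Z s ω' = damp lev U p N Z s ω := by
      simp only [damp, tot, Four.succ]
      congr 1; congr 1; congr 1; congr 1
      refine Finset.sum_congr rfl fun z _ => congrArg _ (pot_congr (fun w hw => ?_) z)
      have : w ≠ x := fun e => hx (e ▸ hw)
      simp [ω', this]
    rw [this]
    exact le_self_add
  have hω' : Good ω' := fun w => by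
    by_cases hw : w = x
    · subst hw; simpa [ω'] using hη
    · simpa [ω', hw] using hω w
  set D := ∑ e, (η x e - ω x e) * (Four.succ k ω T (x + move e)).toReal
  set α := max 0 D / κ
  have hα : 0 ≤ α := by positivity
  set β := Real.sqrt (4 * d / κ * (k x * spreadAt k ω T x)) / κ
  have hspread : 0 ≤ spreadAt k ω T x := spreadAt_nonneg hω x
  have hαβ : α ≤ β := by
    refine div_le_div_of_nonneg_right (max_le (Real.sqrt_nonneg _) (Real.le_sqrt_of_sq_le ?_)) hκ.le
    refine (gradient_sq_le hω hκ (hωκ x) hη).trans ?_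
    have h0 : 0 ≤ (2 * d : ℝ) / κ * spreadAt k ω T x := by positivity
    have hhalf : 1 / 2 ≤ k x := half_le_surv hU hx
    rw [show (4 : ℝ) * d / κ * (k x * spreadAt k ω T x) =
      (2 * k x) * ((2 * d : ℝ) / κ * spreadAt k ω T x) by ring]
    exact le_mul_of_one_le_left h0 (by linarith)
  have hG : ∀ z, green k ω z x ≠ ⊤ := fun z => green_ne_top hω hk0 hk1 z (surv_lt_one hU x)
  set γ := ∑ z ∈ Z, (green k ω z x).toReal
  have hγ : 0 ≤ γ := Finset.sum_nonneg fun z _ => ENNReal.toReal_nonneg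
  have hstep : tot lev U p N Z ω' ≤ tot lev U p N Z ω + α * γ := by
    simp only [tot, γ, Finset.mul_sum, ← Finset.sum_add_distrib]
    refine Finset.sum_le_sum fun z _ => ?_
    have h := succ_update_le hω hk0 (surv_lt_one hU) hT hκ x hη hηκ z
    refine (ENNReal.toReal_mono (ENNReal.add_ne_top.2 ⟨succ_ne_top hω hk1 hT z,
      ENNReal.mul_ne_top ENNReal.ofReal_ne_top (hG z)⟩) h).trans (le_of_eq ?_)
    rw [ENNReal.toReal_add (succ_ne_top hω hk1 hT z)
      (ENNReal.mul_ne_top ENNReal.ofReal_ne_top (hG z)), ENNReal.toReal_mul,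
      ENNReal.toReal_ofReal hα]
  have hgr : greens lev U p N Z x ω = ENNReal.ofReal γ := by
    simp only [greens, γ, ← ENNReal.toReal_sum fun z _ => hG z]
    rw [ENNReal.ofReal_toReal (ENNReal.sum_ne_top.2 fun z _ => hG z)]
  simp only [dmg, damp, hgr]
  change ENNReal.ofReal _ ≤ ENNReal.ofReal _ + ENNReal.ofReal s * (ENNReal.ofReal _ *
    (ENNReal.ofReal γ * ENNReal.ofReal β))
  rw [← ENNReal.ofReal_mul hγ, ← ENNReal.ofReal_mul (Real.exp_pos _).le, ← ENNReal.ofReal_mul hs,
    ← ENNReal.ofReal_add (Real.exp_pos _).le (by positivity)]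
  refine ENNReal.ofReal_le_ofReal ?_
  set e := Real.exp (-(s * tot lev U p N Z ω)) with he
  have h1 : e * (1 - s * (α * γ)) ≤ Real.exp (-(s * tot lev U p N Z ω')) := by
    refine le_trans ?_ (Real.exp_le_exp.2 (show -(s * (tot lev U p N Z ω + α * γ)) ≤ _ by
      nlinarith [mul_le_mul_of_nonneg_left hstep hs]))
    rw [mul_add, neg_add, Real.exp_add, ← he]
    exact mul_le_mul_of_nonneg_left (by linarith [Real.add_one_le_exp (-(s * (α * γ)))])
      (Real.exp_pos _).le
  have h2 : s * (e * (γ * α)) ≤ s * (e * (γ * β)) :=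
    mul_le_mul_of_nonneg_left (mul_le_mul_of_nonneg_left (mul_le_mul_of_nonneg_left hαβ hγ)
      (Real.exp_pos _).le) hs
  nlinarith

/-- The damage weighted by an occupation below the killing is at most the Laplace weight. -/
lemma sum_dmg_le {ω : Env d} (hω : Good ω) (hU : 1 ≤ U) {κ s n Γ : ℝ} (hκ : 0 < κ) (hs : 0 ≤ s)
    (hn : 0 < n) (hΓ : 0 ≤ Γ) (X : Finset (Site d)) (r : Site d → ℝ)
    (hr : ∀ x ∈ X, 0 ≤ r x ∧ r x ^ 2 ≤ Γ * (1 - surv lev U p N x)) :
    ∑ x ∈ X, ENNReal.ofReal (r x) * dmg lev U p N Z κ s x ω ≤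
      ENNReal.ofReal (s * (Z.card * ((Γ / (2 * n) + 2 * d * n / κ) / κ))) *
        damp lev U p N Z s ω := by
  classical
  set k := surv lev U p N
  set T := top lev N
  have hk0 : ∀ x, 0 ≤ k x := surv_nonneg hU
  have hk1 : ∀ x, k x ≤ 1 := surv_le_one hU
  set a := Γ / (2 * n) / κ with ha_def
  set b := 2 * d * n / κ / κ with hb_def
  have ha : 0 ≤ a := by positivity
  have hb : 0 ≤ b := by positivity
  have hone : ∀ x ∈ X, ENNReal.ofReal (r x) * dmg lev U p N Z κ s x ω ≤
      ENNReal.ofReal s * (damp lev U p N Z s ω * (ENNReal.ofReal a * (ENNReal.ofReal (1 - k x) *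
        greens lev U p N Z x ω) + ENNReal.ofReal b * (ENNReal.ofReal (k x * spreadAt k ω T x) *
          greens lev U p N Z x ω))) := by
    intro x hx
    obtain ⟨hr0, hr2⟩ := hr x hx
    have hsp : 0 ≤ k x * spreadAt k ω T x := mul_nonneg (hk0 x) (spreadAt_nonneg hω x)
    set β := Real.sqrt (4 * d / κ * (k x * spreadAt k ω T x))
    have hβ2 : β ^ 2 = 4 * d / κ * (k x * spreadAt k ω T x) :=
      Real.sq_sqrt (by positivity)
    have hreal : r x * (β / κ) ≤ a * (1 - k x) + b * (k x * spreadAt k ω T x) := by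
      have h3 : r x * β ≤ r x ^ 2 / (2 * n) + n * β ^ 2 / 2 := by
        rw [div_add_div _ _ (by positivity) two_ne_zero, le_div_iff₀ (by positivity)]
        nlinarith [sq_nonneg (r x - n * β)]
      have h4 : r x ^ 2 / (2 * n) ≤ Γ * (1 - k x) / (2 * n) :=
        div_le_div_of_nonneg_right hr2 (by positivity)
      calc r x * (β / κ) = r x * β / κ := by ring
        _ ≤ (Γ * (1 - k x) / (2 * n) + n * β ^ 2 / 2) / κ :=
          div_le_div_of_nonneg_right (h3.trans (add_le_add h4 le_rfl)) hκ.le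
        _ = _ := by rw [hβ2, ha_def, hb_def]; ring
    calc ENNReal.ofReal (r x) * dmg lev U p N Z κ s x ω
        = ENNReal.ofReal s * (damp lev U p N Z s ω * (greens lev U p N Z x ω *
            ENNReal.ofReal (r x * (β / κ)))) := by
          rw [ENNReal.ofReal_mul hr0]
          simp only [dmg, β, k, T]
          ring
      _ ≤ ENNReal.ofReal s * (damp lev U p N Z s ω * (greens lev U p N Z x ω *
            ENNReal.ofReal (a * (1 - k x) + b * (k x * spreadAt k ω T x)))) := by
          exact mul_le_mul' le_rfl (mul_le_mul' le_rfl (mul_le_mul' le_rfl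
            (ENNReal.ofReal_le_ofReal hreal)))
      _ = _ := by
          rw [ENNReal.ofReal_add (mul_nonneg ha (by linarith [hk1 x])) (mul_nonneg hb hsp),
            ENNReal.ofReal_mul ha, ENNReal.ofReal_mul hb]
          ring
  refine (Finset.sum_le_sum hone).trans ?_
  rw [← Finset.mul_sum, ← Finset.mul_sum, Finset.sum_add_distrib, ← Finset.mul_sum, ← Finset.mul_sum]
  have h1 : ∑ x ∈ X, ENNReal.ofReal (1 - k x) * greens lev U p N Z x ω ≤ Z.card := by
    simp only [greens, Finset.mul_sum]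
    rw [Finset.sum_comm]
    exact (Finset.sum_le_sum fun z _ => sum_kill_green_le hω hk0 hk1 X z).trans (le_of_eq (by simp))
  have h2 : ∑ x ∈ X, ENNReal.ofReal (k x * spreadAt k ω T x) * greens lev U p N Z x ω ≤ Z.card := by
    simp only [greens, Finset.mul_sum]
    rw [Finset.sum_comm]
    exact (Finset.sum_le_sum fun z _ =>
      sum_spread_green_le hω hk0 hk1 (fun x hx => surv_top hx) X z).trans (le_of_eq (by simp))
  refine (mul_le_mul' le_rfl (mul_le_mul' le_rfl (add_le_add (mul_le_mul' le_rfl h1)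
    (mul_le_mul' le_rfl h2)))).trans (le_of_eq ?_)
  rw [← add_mul, ← ENNReal.ofReal_add ha hb, ← ENNReal.ofReal_natCast, ← ENNReal.ofReal_mul (by positivity),
    mul_comm (damp lev U p N Z s ω), ← mul_assoc, ← ENNReal.ofReal_mul hs]
  congr 2
  rw [ha_def, hb_def]
  ring

variable [NeZero d] {μ : Measure (Step d → ℝ)} [IsProbabilityMeasure μ]

variable (μ) in
/-- The Laplace transform of the total chance. -/
noncomputable def phi (lev : Site d →+ ℤ) (U p N : ℕ) (Z : Finset (Site d)) (s : ℝ) : ℝ≥0∞ :=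
  ∫⁻ ω, damp lev U p N Z s ω ∂iidLaw μ

omit [NeZero d] in
lemma phi_le_one {s : ℝ} (hs : 0 ≤ s) : phi μ lev U p N Z s ≤ 1 := by
  refine (lintegral_mono fun ω => ENNReal.ofReal_le_one.2 (Real.exp_le_one_iff.2 ?_)).trans
    (le_of_eq ((lintegral_const 1).trans (by simp)))
  exact neg_nonpos.2 (mul_nonneg hs (Finset.sum_nonneg fun z _ => ENNReal.toReal_nonneg))

open scoped Classical in
/-- The weight of the words through `x` from all starts. -/
noncomputable def load (μ : Measure (Step d → ℝ)) (Z : Finset (Site d))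
    (G : Finset (List (Step d))) (x : Site d) : ℝ≥0∞ :=
  ∑ z ∈ Z, ∑ γ ∈ G, if x ∈ visits z γ then wt μ γ else 0

/-- Climbers of mass `2 δ` whose load is below the killing force the total chance up. -/
lemma mean_ge (hrow : ∀ᵐ q ∂μ, GoodRow q) {κ : ℝ} (hκ : 0 < κ)
    (hell : ∀ᵐ q ∂μ, ∀ e, κ ≤ q e) (hp : 1 ≤ p) (hU : 1 ≤ U) {C : ℕ}
    (hZ : ∀ z ∈ Z, lev z = 0) (G : Finset (List (Step d))) (hG : G ⊆ reachers lev C p N)
    {δ n Γ s : ℝ} (hδ : 0 < δ) (hn : 0 < n) (hΓ : 0 ≤ Γ) (hs : 0 ≤ s)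
    (hmass : ENNReal.ofReal (2 * δ) ≤ ∑ γ ∈ G, wt μ γ)
    (r : Site d → ℝ) (hload : ∀ z ∈ Z, ∀ γ ∈ G, ∀ x ∈ visits z γ,
      load μ Z G x ≤ ENNReal.ofReal (r x) ∧ 0 ≤ r x ∧ r x ^ 2 ≤ Γ * (1 - surv lev U p N x))
    (hsmall : s * ((Γ / (2 * n) + 2 * d * n / κ) / κ) ≤ δ ^ 2 / 2) :
    ENNReal.ofReal (Z.card * (δ / 2) * Real.exp (-((C : ℝ) + 1 + C * p))) *
        phi μ lev U p N Z s ≤
      ∫⁻ ω, ENNReal.ofReal (tot lev U p N Z ω) * damp lev U p N Z s ω ∂iidLaw μ := by
  classical
  set F := damp lev U p N Z s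
  have hF : Measurable F := measurable_damp s
  set φ := phi μ lev U p N Z s
  have hφ : φ ≠ ⊤ := ne_top_of_le_ne_top ENNReal.one_ne_top (phi_le_one hs)
  set A := (C : ℝ) + 1 + C * p
  set c := ENNReal.ofReal (Real.exp (-A))
  set X := Z.biUnion fun z => G.biUnion fun γ => (visits z γ).toFinset
  set E : Site d → ℝ≥0∞ := fun x => ∫⁻ ω, dmg lev U p N Z κ s x ω ∂iidLaw μ
  have hgood := ae_forall_site μ (P := GoodRow) hrow
  have hellω := ae_forall_site μ (P := fun q : Step d → ℝ => ∀ e, κ ≤ q e) hell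
  have hfree : ∀ γ ∈ G, ∀ γ' ∈ G, γ <+: γ' → γ = γ' := fun γ hγ γ' hγ' =>
    reachers_free (hG hγ) (hG hγ')
  have hFD : ∀ x, ∀ᵐ ω ∂iidLaw μ, ∀ᵐ η ∂iidLaw μ,
      F ω ≤ F (({x} : Finset (Site d)).piecewise η ω) + dmg lev U p N Z κ s x ω := fun x => by
    filter_upwards [hgood, hellω] with ω h1 h2
    filter_upwards [hgood, hellω] with η h3 h4
    exact damp_le_dmg h1 hκ h2 hU hs x (h3 x) (h4 x)
  have hone : ∀ z ∈ Z, ENNReal.ofReal δ * φ ≤
      ∑ γ ∈ G, ∫⁻ ω, qp ω z γ * F ω ∂iidLaw μ +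
        (ENNReal.ofReal δ)⁻¹ * ∑ γ ∈ G, wt μ γ * ∑ x ∈ (visits z γ).toFinset, E x := by
    intro z _
    have h := replace_le hrow z G hfree hF (measurable_dmg κ s) hFD
      (δ := ENNReal.ofReal δ) (by simp [hδ]) ENNReal.ofReal_ne_top
    have h2 := (mul_le_mul' hmass le_rfl).trans h
    rw [two_mul, ENNReal.ofReal_add hδ.le hδ.le, add_mul, add_assoc] at h2
    exact (ENNReal.add_le_add_iff_left (ENNReal.mul_ne_top ENNReal.ofReal_ne_top hφ)).1 h2
  have hswap : ∑ z ∈ Z, ∑ γ ∈ G, wt μ γ * ∑ x ∈ (visits z γ).toFinset, E x =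
      ∑ x ∈ X, load μ Z G x * E x := by
    simp only [load, Finset.sum_mul, ite_mul, zero_mul]
    rw [Finset.sum_comm (s := X)]
    refine Finset.sum_congr rfl fun z hz => ?_
    rw [Finset.sum_comm (s := X)]
    refine Finset.sum_congr rfl fun γ hγ => ?_
    rw [Finset.mul_sum, ← Finset.sum_filter]
    refine Finset.sum_congr ?_ fun _ _ => rfl
    ext x
    simp only [List.mem_toFinset, Finset.mem_filter, X, Finset.mem_biUnion]
    exact ⟨fun h => ⟨⟨z, hz, γ, hγ, h⟩, h⟩, fun h => h.2⟩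
  set B := (Γ / (2 * n) + 2 * d * n / κ) / κ
  have hB : 0 ≤ B := by positivity
  have hdamage : ∑ x ∈ X, load μ Z G x * E x ≤ ENNReal.ofReal (Z.card * (δ ^ 2 / 2)) * φ := by
    have hx' : ∀ x ∈ X, load μ Z G x ≤ ENNReal.ofReal (r x) ∧ 0 ≤ r x ∧
        r x ^ 2 ≤ Γ * (1 - surv lev U p N x) := fun x hx => by
      simp only [X, Finset.mem_biUnion, List.mem_toFinset] at hx
      obtain ⟨z, hz, γ, hγ, hxv⟩ := hx
      exact hload z hz γ hγ x hxv
    calc ∑ x ∈ X, load μ Z G x * E x
        ≤ ∑ x ∈ X, ENNReal.ofReal (r x) * E x :=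
          Finset.sum_le_sum fun x hx => mul_le_mul' (hx' x hx).1 le_rfl
      _ = ∫⁻ ω, ∑ x ∈ X, ENNReal.ofReal (r x) * dmg lev U p N Z κ s x ω ∂iidLaw μ := by
          rw [lintegral_finsetSum _ fun x _ => (measurable_dmg κ s x).const_mul _]
          exact Finset.sum_congr rfl fun x _ => (lintegral_const_mul _ (measurable_dmg κ s x)).symm
      _ ≤ ∫⁻ ω, ENNReal.ofReal (s * (Z.card * B)) * F ω ∂iidLaw μ :=
          lintegral_mono_ae (hgood.mono fun ω hω =>
            sum_dmg_le hω hU hκ hs hn hΓ X r fun x hx => (hx' x hx).2)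
      _ ≤ _ := by
          rw [lintegral_const_mul _ hF]
          refine mul_le_mul' (ENNReal.ofReal_le_ofReal ?_) le_rfl
          rw [mul_left_comm]
          exact mul_le_mul_of_nonneg_left hsmall (Nat.cast_nonneg _)
  have hgain : ∀ z ∈ Z, c * ∑ γ ∈ G, ∫⁻ ω, qp ω z γ * F ω ∂iidLaw μ ≤
      ∫⁻ ω, Four.succ (surv lev U p N) ω (top lev N) z * F ω ∂iidLaw μ := by
    intro z hz
    rw [← lintegral_finsetSum G (f := fun γ ω => qp ω z γ * F ω)
      fun γ _ => (measurable_qp γ z).mul hF,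
      ← lintegral_const_mul' c _ ENNReal.ofReal_ne_top]
    refine lintegral_mono fun ω => ?_
    rw [← Finset.sum_mul, ← mul_assoc, Finset.mul_sum]
    refine mul_le_mul' ((Finset.sum_le_sum fun γ hγ => mul_le_mul' ?_ le_rfl).trans
      (sum_keep_le (surv lev U p N) ω (top lev N) z G fun γ hγ => ?_)) le_rfl
    · obtain ⟨hr, hN, hc⟩ := mem_reachers.1 (hG hγ)
      exact keep_ge hp hU hc (hZ z hz) fun k hk => hN ▸ (hr k hk).2
    · obtain ⟨-, hN, -⟩ := mem_reachers.1 (hG hγ)
      change (N : ℤ) ≤ lev (z + disp γ)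
      rw [map_add, hZ z hz, zero_add, hN]
  have hsum : ENNReal.ofReal (Z.card * δ) * φ ≤ ∑ z ∈ Z, ∑ γ ∈ G, ∫⁻ ω, qp ω z γ * F ω ∂iidLaw μ +
      ENNReal.ofReal (Z.card * (δ / 2)) * φ := by
    have h1 := Finset.sum_le_sum hone
    rw [Finset.sum_const, nsmul_eq_mul, Finset.sum_add_distrib, ← Finset.mul_sum, hswap, ← mul_assoc,
      ← ENNReal.ofReal_natCast, ← ENNReal.ofReal_mul (Nat.cast_nonneg _)] at h1
    refine h1.trans (add_le_add le_rfl ((mul_le_mul' le_rfl hdamage).trans (le_of_eq ?_)))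
    rw [← mul_assoc, ← ENNReal.ofReal_inv_of_pos hδ, ← ENNReal.ofReal_mul (by positivity)]
    congr 2
    field_simp
  rw [show (Z.card : ℝ) * δ = Z.card * (δ / 2) + Z.card * (δ / 2) by ring,
    ENNReal.ofReal_add (by positivity) (by positivity), add_mul] at hsum
  have hmain := (ENNReal.add_le_add_iff_right (ENNReal.mul_ne_top ENNReal.ofReal_ne_top hφ)).1 hsum
  rw [ENNReal.ofReal_mul' (Real.exp_pos _).le, mul_right_comm, mul_comm _ (ENNReal.ofReal _)]
  refine (mul_le_mul' le_rfl hmain).trans ?_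
  rw [Finset.mul_sum]
  refine (Finset.sum_le_sum hgain).trans ?_
  rw [← lintegral_finsetSum Z (f := fun z ω => Four.succ (surv lev U p N) ω (top lev N) z * F ω)
    fun z _ => (measurable_pot _ _ z).mul hF]
  refine lintegral_mono_ae (hgood.mono fun ω hω => ?_)
  rw [← Finset.sum_mul, tot, ENNReal.ofReal_sum_of_nonneg fun z _ => ENNReal.toReal_nonneg]
  refine mul_le_mul' (le_of_eq (Finset.sum_congr rfl fun z _ => ?_)) le_rfl
  exact (ENNReal.ofReal_toReal (succ_ne_top hω (surv_le_one hU) (fun x hx => surv_top hx) z)).symm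

/-- Climbers whose load is below the killing make a small total chance exponentially unlikely. -/
theorem total_small (hrow : ∀ᵐ q ∂μ, GoodRow q) {κ : ℝ} (hκ : 0 < κ)
    (hell : ∀ᵐ q ∂μ, ∀ e, κ ≤ q e) (hp : 1 ≤ p) (hU : 1 ≤ U) {C : ℕ}
    (hZ : ∀ z ∈ Z, lev z = 0) (G : Finset (List (Step d))) (hG : G ⊆ reachers lev C p N)
    {δ n Γ : ℝ} (hδ : 0 < δ) (hδ1 : δ ≤ 1) (hn : 0 < n) (hΓ : 0 ≤ Γ)
    (hB1 : 1 ≤ (Γ / (2 * n) + 2 * d * n / κ) / κ)
    (hmass : ENNReal.ofReal (2 * δ) ≤ ∑ γ ∈ G, wt μ γ)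
    (r : Site d → ℝ) (hload : ∀ z ∈ Z, ∀ γ ∈ G, ∀ x ∈ visits z γ,
      load μ Z G x ≤ ENNReal.ofReal (r x) ∧ 0 ≤ r x ∧ r x ^ 2 ≤ Γ * (1 - surv lev U p N x)) :
    iidLaw μ {ω | tot lev U p N Z ω < 1} ≤ ENNReal.ofReal (Real.exp (1 -
      δ ^ 3 * Real.exp (-((C : ℝ) + 1 + C * p)) * Z.card /
        (8 * ((Γ / (2 * n) + 2 * d * n / κ) / κ)))) := by
  set B := (Γ / (2 * n) + 2 * d * n / κ) / κ
  set e := Real.exp (-((C : ℝ) + 1 + C * p))
  set φ := phi μ lev U p N Z
  set σ := δ ^ 2 / (2 * B) with hσ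
  have hσ0 : 0 ≤ σ := by positivity
  set a := (Z.card : ℝ) * (δ / 2) * e with ha
  have ha0 : 0 ≤ a := by positivity
  set x := σ * a with hx
  have hx0 : 0 ≤ x := by positivity
  set q := ⌈x⌉₊ + 1
  have hq : (0 : ℝ) < q := by positivity
  have hqx : x ≤ q := (Nat.le_ceil x).trans (by simp [q])
  set u := σ / q with hu_def
  have hu : 0 ≤ u := by positivity
  have hy : Real.exp (x / q / 2) ≤ 1 + x / q :=
    exp_half_le (by positivity) (by rw [div_le_one hq]; exact hqx)
  have hstep : ∀ j < q, φ ((j + 1 : ℕ) * u) * ENNReal.ofReal (Real.exp (x / q / 2)) ≤ φ (j * u) := by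
    intro j hj
    set t := (j : ℝ) * u
    set s := ((j + 1 : ℕ) : ℝ) * u with hs_def
    have hs : 0 ≤ s := by positivity
    have hst : s = t + u := by simp only [s, t]; push_cast; ring
    have hsmall : s * B ≤ δ ^ 2 / 2 := by
      have h1 : s ≤ σ := by
        have : ((j + 1 : ℕ) : ℝ) ≤ q := by exact_mod_cast hj
        calc s ≤ q * u := mul_le_mul_of_nonneg_right this hu
          _ = σ := by rw [hu_def]; field_simp
      refine (mul_le_mul_of_nonneg_right h1 (by linarith)).trans (le_of_eq ?_)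
      rw [hσ]; field_simp
    have hmean := mean_ge hrow hκ hell hp hU hZ G hG hδ hn hΓ hs hmass r hload hsmall
    have hm : Measurable fun ω => ENNReal.ofReal (tot lev U p N Z ω) * damp lev U p N Z s ω :=
      measurable_tot.ennreal_ofReal.mul (measurable_damp s)
    calc φ s * ENNReal.ofReal (Real.exp (x / q / 2))
        ≤ φ s * (1 + ENNReal.ofReal u * ENNReal.ofReal a) := by
          refine mul_le_mul' le_rfl ((ENNReal.ofReal_le_ofReal hy).trans (le_of_eq ?_))
          rw [← ENNReal.ofReal_mul hu, ← ENNReal.ofReal_one,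
            ← ENNReal.ofReal_add zero_le_one (by positivity)]
          congr 2
          rw [hx, hu_def]; ring
      _ ≤ φ s + ENNReal.ofReal u *
            ∫⁻ ω, ENNReal.ofReal (tot lev U p N Z ω) * damp lev U p N Z s ω ∂iidLaw μ := by
          rw [mul_add, mul_one, mul_left_comm, mul_comm (φ s)]
          exact add_le_add le_rfl (mul_le_mul' le_rfl hmean)
      _ = ∫⁻ ω, damp lev U p N Z s ω + ENNReal.ofReal u *
            (ENNReal.ofReal (tot lev U p N Z ω) * damp lev U p N Z s ω) ∂iidLaw μ := by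
          rw [lintegral_add_left (measurable_damp s), lintegral_const_mul _ hm]
          rfl
      _ ≤ φ t := by
          refine lintegral_mono fun ω => ?_
          have hS : 0 ≤ tot lev U p N Z ω := Finset.sum_nonneg fun z _ => ENNReal.toReal_nonneg
          simp only [damp]
          rw [← ENNReal.ofReal_mul hS, ← ENNReal.ofReal_mul hu,
            ← ENNReal.ofReal_add (Real.exp_pos _).le (by positivity)]
          refine ENNReal.ofReal_le_ofReal ?_
          have h1 := Real.add_one_le_exp (u * tot lev U p N Z ω)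
          have h2 : Real.exp (-(t * tot lev U p N Z ω)) =
              Real.exp (-(s * tot lev U p N Z ω)) * Real.exp (u * tot lev U p N Z ω) := by
            rw [← Real.exp_add, hst]; ring_nf
          rw [h2]
          nlinarith [mul_le_mul_of_nonneg_left h1 (Real.exp_pos (-(s * tot lev U p N Z ω))).le]
  have hiter : ∀ j ≤ q, φ (j * u) * ENNReal.ofReal (Real.exp (x / q / 2)) ^ j ≤ 1 := by
    intro j
    induction j with
    | zero =>
      intro _
      simpa using phi_le_one (μ := μ) (lev := lev) (U := U) (p := p) (N := N) (Z := Z) le_rfl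
    | succ j ih =>
      intro hj
      refine le_trans ?_ (ih (by omega))
      rw [pow_succ', ← mul_assoc]
      exact mul_le_mul' (hstep j (by omega)) le_rfl
  have hfin := hiter q le_rfl
  rw [show (q : ℝ) * u = σ by rw [hu_def]; field_simp, ← ENNReal.ofReal_pow (Real.exp_pos _).le,
    ← Real.exp_nat_mul, show (q : ℝ) * (x / q / 2) = x / 2 by field_simp] at hfin
  have hφ : φ σ ≤ ENNReal.ofReal (Real.exp (-(x / 2))) := by
    rw [Real.exp_neg, ENNReal.ofReal_inv_of_pos (Real.exp_pos _), ENNReal.le_inv_iff_mul_le]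
    exact hfin
  have hmark : iidLaw μ {ω | tot lev U p N Z ω < 1} ≤ ENNReal.ofReal (Real.exp 1) * φ σ := by
    rw [← lintegral_indicator_one (measurableSet_lt measurable_tot measurable_const)]
    simp only [φ, phi]
    rw [← lintegral_const_mul _ (measurable_damp σ)]
    refine lintegral_mono fun ω => ?_
    by_cases hω : tot lev U p N Z ω < 1
    · rw [Set.indicator_of_mem (s := {a : Env d | tot lev U p N Z a < 1}) hω, Pi.one_apply, damp,
        ← ENNReal.ofReal_mul (Real.exp_pos _).le, ← Real.exp_add, ← ENNReal.ofReal_one]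
      refine ENNReal.ofReal_le_ofReal (Real.one_le_exp ?_)
      have h1 : σ ≤ 1 := by
        rw [hσ, div_le_one (by linarith)]
        have : δ ^ 2 ≤ 1 := pow_le_one₀ hδ.le hδ1
        linarith
      have : σ * tot lev U p N Z ω ≤ 1 := by
        refine (mul_le_of_le_one_right hσ0 hω.le).trans h1
      linarith
    · rw [Set.indicator_of_notMem (s := {a : Env d | tot lev U p N Z a < 1}) hω]
      exact zero_le
  refine hmark.trans ((mul_le_mul' le_rfl hφ).trans (le_of_eq ?_))
  rw [← ENNReal.ofReal_mul (Real.exp_pos _).le, ← Real.exp_add, hx, hσ, ha]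
  congr 2
  ring

end Vale.Agent.P147.Velocity.Step
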